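import Vale.Agent.P235.H830.Unc

/-!
# `[X7]` (helper283): uncrossing of eight cuts with three more vertices each

`D i` all contain a set `W` of two vertices; `D i ∩ D j` has at least four outer neighbours, none of
them in a block, so `D i ∪ D j` has at most two outer neighbours off the blocks. The four pairs
contradict the uncrossing of helper830.
-/

namespace Vale.Agent.P235.XC.H283

open SimpleGraph Vale.Agent.P235.H134 Vale.Agent.P235.H56 Vale.Agent.P235.H141
open Vale.Agent.P235.H830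

variable {V : Type} [Finite V] {G : SimpleGraph V}

omit [Finite V] in
/-- the intersection of two cuts has its outer neighbours off the blocks -/
theorem inter_nbr {ι : Type} {B S D : ι → Set V} (hBB : ∀ i j, i ≠ j → Disjoint (B i) (B j))
    (hSB : ∀ i j, i ≠ j → Disjoint (S i) (B j)) (hDB : ∀ i j, Disjoint (D i) (B j))
    (hN : ∀ i, nbr G (D i) ⊆ S i ∪ B i) {i j : ι} (hij : i ≠ j) (l : ι) :
    Disjoint (nbr G (D i ∩ D j)) (B l) := by
  rw [Set.disjoint_left]
  rintro v ⟨hv, u, hu, huv⟩ hvl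
  have hi : v ∉ D i := fun h => Set.disjoint_left.1 (hDB i l) h hvl
  have hj : v ∉ D j := fun h => Set.disjoint_left.1 (hDB j l) h hvl
  have h1 := hN i (⟨hi, u, hu.1, huv⟩ : v ∈ nbr G (D i))
  have h2 := hN j (⟨hj, u, hu.2, huv⟩ : v ∈ nbr G (D j))
  have h3 : i = l := by
    by_contra hne
    rcases h1 with h | h
    · exact Set.disjoint_left.1 (hSB i l hne) h hvl
    · exact Set.disjoint_left.1 (hBB i l hne) h hvl
  have h4 : j = l := by
    by_contra hne
    rcases h2 with h | h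
    · exact Set.disjoint_left.1 (hSB j l hne) h hvl
    · exact Set.disjoint_left.1 (hBB j l hne) h hvl
  exact hij (h3.trans h4.symm)

/-- **[X7]** in plain letters -/
theorem unc8 (B S D : Fin 8 → Set V) (W : Set V) (h3 : Conn3 G)
    (hQ : ∀ X : Set V, (nbr G X).ncard ≤ 3 → X.ncard ≤ 1 ∨ ((X ∪ nbr G X)ᶜ).ncard ≤ 1)
    (hS : ∀ i, (S i).ncard ≤ 3) (hBB : ∀ i j, i ≠ j → Disjoint (B i) (B j))
    (hSB : ∀ i j, i ≠ j → Disjoint (S i) (B j)) (hDB : ∀ i j, Disjoint (D i) (B j))
    (hN : ∀ i, nbr G (D i) ⊆ S i ∪ B i) (hW : 2 ≤ W.ncard) (hWD : ∀ i, W ⊆ D i)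
    (hB : 3 ≤ (B 0).ncard) : False := by
  classical
  set BB : Set V := ⋃ i, B i with hBBd
  have hBsub : ∀ i, B i ⊆ BB := fun i => Set.subset_iUnion B i
  have hWne : W.Nonempty := by
    rw [Set.nonempty_iff_ne_empty]
    rintro rfl
    simp at hW
  -- the outer neighbours of a cut off the blocks
  have hcut : ∀ i, (nbr G (D i) \ BB).ncard ≤ 3 := by
    intro i
    refine (Set.ncard_le_ncard ?_ (Set.toFinite _)).trans (hS i)
    rintro v ⟨hv, hvB⟩
    rcases hN i hv with h | h
    · exact h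
    · exact absurd (hBsub i h) hvB
  -- two cuts
  have hpair : ∀ i j, i ≠ j → (nbr G (D i ∪ D j) \ BB).ncard ≤ 2 := by
    intro i j hij
    have h1 := Un.submod (G := G) BB (D i) (D j)
    have h2 := hcut i
    have h4 := hcut j
    have hsub : nbr G (D i ∩ D j) ⊆ nbr G (D i ∩ D j) \ BB := by
      intro v hv
      refine ⟨hv, fun hvB => ?_⟩
      obtain ⟨l, hl⟩ := Set.mem_iUnion.1 hvB
      exact Set.disjoint_left.1 (inter_nbr hBB hSB hDB hN hij l) hv hl
    have h5 : (nbr G (D i ∩ D j)).ncard ≤ (nbr G (D i ∩ D j) \ BB).ncard :=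
      Set.ncard_le_ncard hsub (Set.toFinite _)
    have h6 : 4 ≤ (nbr G (D i ∩ D j)).ncard := by
      by_contra hlt
      rcases hQ (D i ∩ D j) (by omega) with h | h
      · have h7 : W.ncard ≤ (D i ∩ D j).ncard :=
          Set.ncard_le_ncard (fun w hw => ⟨hWD i hw, hWD j hw⟩) (Set.toFinite _)
        omega
      · have h7 : (B 0).ncard ≤ ((D i ∩ D j ∪ nbr G (D i ∩ D j))ᶜ).ncard := by
          refine Set.ncard_le_ncard ?_ (Set.toFinite _)
          rintro v hv (h' | h')
          · exact Set.disjoint_left.1 (hDB i 0) h'.1 hv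
          · exact Set.disjoint_left.1 (inter_nbr hBB hSB hDB hN hij 0) h' hv
        omega
    omega
  -- four pairs
  let a : Fin 4 → Fin 8 := ![0, 1, 2, 3]
  let b : Fin 4 → Fin 8 := ![4, 5, 6, 7]
  have hab : ∀ k, a k ≠ b k := by decide
  have hab' : ∀ k l, a k ≠ b l := by decide
  have haa : ∀ k l, k ≠ l → a k ≠ a l := by decide
  have hbb : ∀ k l, k ≠ l → b k ≠ b l := by decide
  refine Un.unc V G (fun k => B (a k) ∪ B (b k)) (fun k => nbr G (D (a k) ∪ D (b k)) \ BB)
    (fun k => D (a k) ∪ D (b k)) h3 (fun k => hpair _ _ (hab k)) ?_ ?_ ?_ ?_ ?_ ?_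
  · intro k l hkl
    refine Set.disjoint_union_left.2 ⟨Set.disjoint_union_right.2 ⟨?_, ?_⟩,
      Set.disjoint_union_right.2 ⟨?_, ?_⟩⟩
    · exact hBB _ _ (haa k l hkl)
    · exact hBB _ _ (hab' k l)
    · exact hBB _ _ (hab' l k).symm
    · exact hBB _ _ (hbb k l hkl)
  · intro k l
    rw [Set.disjoint_left]
    rintro v ⟨-, hv⟩ (h | h)
    · exact hv (hBsub _ h)
    · exact hv (hBsub _ h)
  · intro k l
    exact Set.disjoint_union_left.2 ⟨Set.disjoint_union_right.2 ⟨hDB _ _, hDB _ _⟩,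
      Set.disjoint_union_right.2 ⟨hDB _ _, hDB _ _⟩⟩
  · intro k v hv
    by_cases hvB : v ∈ BB
    · refine Or.inr ?_
      obtain ⟨l, hl⟩ := Set.mem_iUnion.1 hvB
      obtain ⟨hv1, u, hu, huv⟩ := hv
      have key : ∀ i, u ∈ D i → v ∉ D i → v ∈ B i := by
        intro i hui hvi
        rcases hN i (⟨hvi, u, hui, huv⟩ : v ∈ nbr G (D i)) with h | h
        · by_cases hil : i = l
          · rw [hil]; exact hl
          · exact absurd hl (Set.disjoint_left.1 (hSB i l hil) h)
        · exact h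
      rcases hu with hu | hu
      · exact Or.inl (key _ hu fun h => hv1 (Or.inl h))
      · exact Or.inr (key _ hu fun h => hv1 (Or.inr h))
    · exact Or.inl ⟨hv, hvB⟩
  · intro k l
    obtain ⟨w, hw⟩ := hWne
    exact ⟨w, Or.inl (hWD _ hw), Or.inl (hWD _ hw)⟩
  · exact hB.trans (Set.ncard_le_ncard (fun v hv => Or.inl hv) (Set.toFinite _))

end Vale.Agent.P235.XC.H283
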