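import Vale.Agent.P235.XC.Defs
import Vale.Agent.P235.XC.H283.X7

set_option autoImplicit false

/-! P235, line XC, `[X7]` (helper283): the literal `Unc8Stmt`. -/

namespace Vale.Agent.P235.XC.H283

theorem unc8Stmt : Unc8Stmt := fun _ _ _ B S D M h3 hQ hS hBB hSB hDB hN hMD hM hB =>
  unc8 B S D M h3 hQ hS hBB (fun i j _ => hSB i j) hDB hN hM hMD (hB 0)

end Vale.Agent.P235.XC.H283
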